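import Vale.Agent.P355.Seven.DataA.Defs

/-! Certificate data for the case with orthogonal squares. -/

namespace Vale.Agent.P355.Seven.DataA

noncomputable def gw1 (k i : ℕ) : ℤ := rowAt (List.getD [0x20fb934151400000000000007d5d6cfb2c, 0x269cc3496a00000000000000000000000] k 0) i
theorem okPsd1 : psdCheck 2 2 gw1 (grid.gram 1) = true := by decide +kernel

end Vale.Agent.P355.Seven.DataA
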