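import Vale.Agent.P355.Seven.DataA.Defs

/-! Certificate data for the case with orthogonal squares. -/

namespace Vale.Agent.P355.Seven.DataA

noncomputable def gw10 (k i : ℕ) : ℤ := rowAt (List.getD [0x5541407880000000000000034a447f1aa000000000000084dcf53c2400000000000028d65febe88, 0x44d3508ac000000000000003e753422a0000000000000000000000000000000000001a040c29cc, 0x1d25cac6a000000000000000916ff5d90000000000000000000000000000000000000000000000, 0x18580ba920000000000000000000000000000000000000000000000] k 0) i
theorem okPsd10 : psdCheck 4 4 gw10 (grid.gram 10) = true := by decide +kernel

end Vale.Agent.P355.Seven.DataA
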