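import Vale.Agent.P355.Seven.DataA.Defs

/-! Certificate data for the case with orthogonal squares. -/

namespace Vale.Agent.P355.Seven.DataA

noncomputable def gw11 (k i : ℕ) : ℤ := rowAt (List.getD [0x32edcda9a08a00000000000043e32e78bdd000000000000ea0750af03100000000000014cde83d11200000000000014cde83d11600000000000089a7b4596090000000000004e3980d395b0000000000000885fc20168, 0xac361d39d7a000000000000064b35ad1000000000000002db8dab54b10000000000002db8dab54af00000000000016d68758401000000000000013788da1cc0000000000001ef20245907, 0x7b5907ca000000000000000158de6c9000000000000000158de6c90000000000000030708245d000000000000005704b423600000000000000104bf13c3, 0x3ca0d44d2000000000000000bce1f8cb000000000000000bce1f8cb00000000000000246a413d300000000000000000000000000000000000007e35ee71e, 0x22e98a7830000000000000004fe230760000000000000004fe23076000000000000004b831fefc0000000000000000000000000000000000000000000000, 0x146280c400000000000005ea8d4753200000000000005e794252eb000000000000000000000000000000000000000000000000000000000000000000000, 0x28a56a1f400000000000000000000000000000000000005eda8b69a000000000000000000000000000000000000000000000000000000000000000000000, 0x433c894180000000000000000000000000000000000000000000000000000000000000000000000000000000000000000000000000000000000000000000] k 0)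 i
theorem okPsd11 : psdCheck 8 8 gw11 (grid.gram 11) = true := by decide +kernel

end Vale.Agent.P355.Seven.DataA
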