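import Vale.Agent.P355.Seven.DataA.Defs

/-! Certificate data for the case with orthogonal squares. -/

namespace Vale.Agent.P355.Seven.DataA

noncomputable def gw12 (k i : ℕ) : ℤ := rowAt (List.getD [0x2c3d5982365e000000000000d763c6d12b3000000000000273d06734b5000000000000273d06734b5000000000000882599335120000000000004dcd66b4e6f0000000000000b1d54c9b3c, 0x1859af9b18000000000000006af984f89000000000000006af984f890000000000000141d44671c000000000000018b3953ee200000000000000bd5592d3a, 0x7b6bd46ef0000000000000101c6a89ac000000000000006182cc29d0000000000000065e1924e700000000000000737dbb3a500000000000000000000000, 0xb7d6abeba0000000000000000000000000000000000000c0cf9109100000000000000ac70918f800000000000000d4cfeca0400000000000000000000000, 0x3bc72d5d700000000000000000000000000000000000008c95b4cbe0000000000000014f9a7a090000000000000000000000000000000000000000000000, 0x74f2997120000000000000000000000000000000000000000000000000000000000006a322da2e0000000000000000000000000000000000000000000000, 0x585012d3e0000000000000000000000000000000000000000000000000000000000000000000000000000000000000000000000000000000000000000000] k 0) i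
theorem okPsd12 : psdCheck 7 7 gw12 (grid.gram 12) = true := by decide +kernel

end Vale.Agent.P355.Seven.DataA
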