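import Vale.Agent.P355.Seven.DataA.Defs

/-! Certificate data for the case with orthogonal squares. -/

namespace Vale.Agent.P355.Seven.DataA

noncomputable def gw2 (k i : ℕ) : ℤ := rowAt (List.getD [0x2fb483a19b00000000000002ce633acab80000000000007272ec59d9500000000000155b2730dc38, 0x1db49c2cb880000000000001161d2c4efc0000000000003525cf6b37e00000000000000000000000, 0x11f3e549de000000000000013201e88880000000000000000000000000000000000000000000000, 0x7f243445c000000000000000000000000000000000000000000000000000000000000000000000] k 0) i
theorem okPsd2 : psdCheck 4 4 gw2 (grid.gram 2) = true := by decide +kernel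

end Vale.Agent.P355.Seven.DataA
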