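import Vale.Agent.P355.Seven.DataA.Defs

/-! Certificate data for the case with orthogonal squares. -/

namespace Vale.Agent.P355.Seven.DataA

noncomputable def gw3 (k i : ℕ) : ℤ := rowAt (List.getD [0xff874572920000000000001e9146a0cc600000000000079a1789b4a100000000000134b43244c32, 0x416f6361ac30000000000004e5e0c4cf830000000000001700a3afb5c00000000000000000000000, 0x36963186f0000000000000042740f2c6a0000000000000000000000000000000000000000000000, 0x8fc7daf0c000000000000000000000000000000000000000000000000000000000000000000000] k 0) i
theorem okPsd3 : psdCheck 4 4 gw3 (grid.gram 3) = true := by decide +kernel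

end Vale.Agent.P355.Seven.DataA
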