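import Vale.Agent.P355.Seven.DataA.Defs

/-! Certificate data for the case with orthogonal squares. -/

namespace Vale.Agent.P355.Seven.DataA

noncomputable def gw4 (k i : ℕ) : ℤ := rowAt (List.getD [0x666861b28b4000000000000458c7f28b630000000000001403f970811, 0x6732cbd1e000000000000007db69f9ac, 0x5db311a3600000000000000000000000] k 0) i
theorem okPsd4 : psdCheck 3 3 gw4 (grid.gram 4) = true := by decide +kernel

end Vale.Agent.P355.Seven.DataA
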