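import Vale.Agent.P355.Seven.DataA.Defs

/-! Certificate data for the case with orthogonal squares. -/

namespace Vale.Agent.P355.Seven.DataA

noncomputable def gw5 (k i : ℕ) : ℤ := rowAt (List.getD [0x3ffe3cf415600000000000057bad2a579b, 48015541712] k 0) i
theorem okPsd5 : psdCheck 2 2 gw5 (grid.gram 5) = true := by decide +kernel

end Vale.Agent.P355.Seven.DataA
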