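import Vale.Agent.P355.Seven.DataA.Defs

/-! Certificate data for the case with orthogonal squares. -/

namespace Vale.Agent.P355.Seven.DataA

noncomputable def gw7 (k i : ℕ) : ℤ := rowAt (List.getD [0x434a3a30dec0000000000001376ecd4b78000000000000081c8ab06410000000000004f9a5cf4643000000000000543cd419d0d0000000000004f9a5cf463f000000000000543cd419d0f00000000000050c71b143ba000000000004e50613b04af000000000001f684e0732e8, 0x76faa9fef3000000000000109b170ef5d0000000000000fd8218a44b000000000000198a75af2ac0000000000000edce1ee452000000000000198a75af2040000000000000edce1ee480000000000000106eb8dab340000000000006d19e54d72200000000000000000000000, 0x4c6d8a99700000000000000cf2f15203000000000000009a1056b85000000000000011349de64400000000000000a692232dc000000000000011349de63e00000000000000a692232dc000000000000036303535540000000000000000000000000000000000000000000000, 0x22ae31ed000000000000000198353b700000000000000057af85f10000000000004694fbe995800000000000013d647042350000000000004695c21431300000000000013e9bb43a52000000000000000000000000000000000000000000000000000000000000000000000, 0x3192c4ce5000000000000002478151ab000000000000007d5730863000000000000031ee95b1ad00000000000001bceec0094000000000000030d351c82400000000000000000000000000000000000000000000000000000000000000000000000000000000000000000000, 0xbeb5e733000000000000001b1315faf0000000000000012251ef6700000000000001c577a15bd000000000000000000000000000000000000221b3e289200000000000000000000000000000000000000000000000000000000000000000000000000000000000000000000,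 0x273b0d09100000000000000591c771f5000000000000003bb89bdcb000000000000012f93a2930000000000000000000000000000000000000000000000000000000000000000000000000000000000000000000000000000000000000000000000000000000000000000000, 0xc72103b300000000000000384f0f888000000000000006390f660400000000000000000000000000000000000000000000000000000000000000000000000000000000000000000000000000000000000000000000000000000000000000000000000000000000000000000, 0x4b4ccc3ec00000000000000117b5e3560000000000000000000000000000000000000000000000000000000000000000000000000000000000000000000000000000000000000000000000000000000000000000000000000000000000000000000000000000000000000000, 0x225ba3b820000000000000000000000000000000000000000000000000000000000000000000000000000000000000000000000000000000000000000000000000000000000000000000000000000000000000000000000000000000000000000] k 0) i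
theorem okPsd7 : psdCheck 10 10 gw7 (grid.gram 7) = true := by decide +kernel

end Vale.Agent.P355.Seven.DataA
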