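import Vale.Agent.P355.Seven.DataA.Defs

/-! Certificate data for the case with orthogonal squares. -/

namespace Vale.Agent.P355.Seven.DataA

noncomputable def gw8 (k i : ℕ) : ℤ := rowAt (List.getD [0x36af4b7be1a00000000000009b3c5acc08000000000000111bfa4ab30000000000000306bfb041890000000000006513002fbf9000000000000306bfb042ab0000000000006513002f95300000000000029992a138640000000000028ba0198989700000000000096076e88b4e, 0x1373baddce700000000000002e735fa55b0000000000000317bae08bd0000000000000c6855e57e30000000000002855ad2f1fc0000000000000c6855e57550000000000002855ad2f0ae000000000000199705a49e2000000000000714d5e858e000000000000000000000000, 0xdb2b6abdc80000000000000e2225298f80000000000000db20080aa6000000000000138598cb29f0000000000002435724ddd3000000000000138598cb2d50000000000002435724dd5500000000000030e685b33600000000000000000000000000000000000000000000000, 0xcc6717eb0000000000000005d7fa43f00000000000000053af36910000000000002a65b3f5f2a0000000000006331f6274d10000000000002a686a989d30000000000006367be63784000000000000000000000000000000000000000000000000000000000000000000000, 0x188c99415300000000000000b3ab918d700000000000000a0cf9910d000000000000018ac48c1a5000000000000067598601220000000000000137572cbf400000000000000000000000000000000000000000000000000000000000000000000000000000000000000000000, 0x42e4dca40000000000000047269fa85000000000000003226159c100000000000000a9f1f44f800000000000000000000000000000000000012a474985c00000000000000000000000000000000000000000000000000000000000000000000000000000000000000000000,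 0x230568fe00000000000000253fef635000000000000001a41254df00000000000000f52144ad2000000000000000000000000000000000000000000000000000000000000000000000000000000000000000000000000000000000000000000000000000000000000000000, 0x6a090ffbc000000000000000db65d4ff000000000000000ad41ca8d00000000000000000000000000000000000000000000000000000000000000000000000000000000000000000000000000000000000000000000000000000000000000000000000000000000000000000, 0x5e22e0a880000000000000004c035ee300000000000000000000000000000000000000000000000000000000000000000000000000000000000000000000000000000000000000000000000000000000000000000000000000000000000000000, 0x2ba38a9d600000000000000000000000000000000000000000000000000000000000000000000000000000000000000000000000000000000000000000000000000000000000000000000000000000000000000000] k 0) i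
theorem okPsd8 : psdCheck 10 10 gw8 (grid.gram 8) = true := by decide +kernel

end Vale.Agent.P355.Seven.DataA
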