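import Vale.Agent.P355.Seven.DataA.Defs

/-! Certificate data for the case with orthogonal squares. -/

namespace Vale.Agent.P355.Seven.DataA

noncomputable def gw9 (k i : ℕ) : ℤ := rowAt (List.getD [0x3ddbf46e94a00000000000032d52912a5200000000000021a49608394000000000000172afd0882600000000000147d4af15ca8000000000000bc6506010c20000000000002391bcb69a3000000000000222e9672128, 0x24b3351460000000000000f3d78b823200000000000000b96325c53000000000000081ab0e4a5a00000000000000000000000000000000000325de7805d4000000000000155901a95dc00000000000008221f23609, 0x666bef752000000000000008e56b952c0000000000000034c9c78740000000000000070723dd980000000000000000000000000000000000000000000000000000000000014894c98f40000000000000089c787e3e, 0x48e3e6be8000000000000008936339460000000000000047f5e2c3e0000000000000069c97f5cc00000000000000000000000000000000000000000000000000000000000000000000000000000000001892865bc0, 0x8b8216b5000000000000000847ff2b1000000000000006bafb5602000000000000000650904de00000000000000000000000000000000000000000000000000000000000000000000000000000000000000000000, 0xc013daa0000000000000001e382e56200000000000000000000000000000000000006527889d000000000000000000000000000000000000000000000000000000000000000000000000000000000000000000000, 0x208b7f46600000000000000640b76cd6000000000000000000000000000000000000000000000000000000000000000000000000000000000000000000000000000000000000000000000000000000000000000000,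 0x75309d5b000000000000000000000000000000000000000000000000000000000000000000000000000000000000000000000000000000000000000000000000000000000000000000000000000000000000000000] k 0) i
theorem okPsd9 : psdCheck 8 8 gw9 (grid.gram 9) = true := by decide +kernel

end Vale.Agent.P355.Seven.DataA
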