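import Vale.Agent.P355.Seven.DataA.Psd0
import Vale.Agent.P355.Seven.DataA.Psd1
import Vale.Agent.P355.Seven.DataA.Psd2
import Vale.Agent.P355.Seven.DataA.Psd3
import Vale.Agent.P355.Seven.DataA.Psd4
import Vale.Agent.P355.Seven.DataA.Psd5
import Vale.Agent.P355.Seven.DataA.Psd6
import Vale.Agent.P355.Seven.DataA.Psd7
import Vale.Agent.P355.Seven.DataA.Psd8
import Vale.Agent.P355.Seven.DataA.Psd9
import Vale.Agent.P355.Seven.DataA.Psd10
import Vale.Agent.P355.Seven.DataA.Psd11
import Vale.Agent.P355.Seven.DataA.Psd12
import Vale.Agent.P355.Seven.DataA.Psd13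

/-! Certificate data for the case with orthogonal squares. -/

namespace Vale.Agent.P355.Seven.DataA

theorem okClasses : grid.okClasses = true := by decide +kernel
set_option maxRecDepth 200000 in
theorem okCorr : grid.okCorr corrW = true := by decide +kernel
theorem okVecs0 : grid.okVecs 0 = true ∧ grid.okStart 0 = true := by
  constructor <;> decide +kernel
theorem okSym0 : iall (fun i => iall (fun j => Int.beq' (grid.gram 0 i j) (grid.gram 0 j i)) 3) 3 = true := by
  decide +kernel
theorem okVecs1 : grid.okVecs 1 = true ∧ grid.okStart 1 = true := by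
  constructor <;> decide +kernel
theorem okSym1 : iall (fun i => iall (fun j => Int.beq' (grid.gram 1 i j) (grid.gram 1 j i)) 2) 2 = true := by
  decide +kernel
theorem okVecs2 : grid.okVecs 2 = true ∧ grid.okStart 2 = true := by
  constructor <;> decide +kernel
theorem okSym2 : iall (fun i => iall (fun j => Int.beq' (grid.gram 2 i j) (grid.gram 2 j i)) 4) 4 = true := by
  decide +kernel
theorem okVecs3 : grid.okVecs 3 = true ∧ grid.okStart 3 = true := by
  constructor <;> decide +kernel
theorem okSym3 : iall (fun i => iall (fun j => Int.beq' (grid.gram 3 i j) (grid.gram 3 j i)) 4) 4 = true := by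
  decide +kernel
theorem okVecs4 : grid.okVecs 4 = true ∧ grid.okStart 4 = true := by
  constructor <;> decide +kernel
theorem okSym4 : iall (fun i => iall (fun j => Int.beq' (grid.gram 4 i j) (grid.gram 4 j i)) 3) 3 = true := by
  decide +kernel
theorem okVecs5 : grid.okVecs 5 = true ∧ grid.okStart 5 = true := by
  constructor <;> decide +kernel
theorem okSym5 : iall (fun i => iall (fun j => Int.beq' (grid.gram 5 i j) (grid.gram 5 j i)) 2) 2 = true := by
  decide +kernel
theorem okVecs6 : grid.okVecs 6 = true ∧ grid.okStart 6 = true := by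
  constructor <;> decide +kernel
theorem okSym6 : iall (fun i => iall (fun j => Int.beq' (grid.gram 6 i j) (grid.gram 6 j i)) 2) 2 = true := by
  decide +kernel
theorem okVecs7 : grid.okVecs 7 = true ∧ grid.okStart 7 = true := by
  constructor <;> decide +kernel
theorem okSym7 : iall (fun i => iall (fun j => Int.beq' (grid.gram 7 i j) (grid.gram 7 j i)) 10) 10 = true := by
  decide +kernel
theorem okVecs8 : grid.okVecs 8 = true ∧ grid.okStart 8 = true := by
  constructor <;> decide +kernel
theorem okSym8 : iall (fun i => iall (fun j => Int.beq' (grid.gram 8 i j) (grid.gram 8 j i)) 10) 10 = true := by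
  decide +kernel
theorem okVecs9 : grid.okVecs 9 = true ∧ grid.okStart 9 = true := by
  constructor <;> decide +kernel
theorem okSym9 : iall (fun i => iall (fun j => Int.beq' (grid.gram 9 i j) (grid.gram 9 j i)) 8) 8 = true := by
  decide +kernel
theorem okVecs10 : grid.okVecs 10 = true ∧ grid.okStart 10 = true := by
  constructor <;> decide +kernel
theorem okSym10 : iall (fun i => iall (fun j => Int.beq' (grid.gram 10 i j) (grid.gram 10 j i)) 4) 4 = true := by
  decide +kernel
theorem okVecs11 : grid.okVecs 11 = true ∧ grid.okStart 11 = true := by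
  constructor <;> decide +kernel
theorem okSym11 : iall (fun i => iall (fun j => Int.beq' (grid.gram 11 i j) (grid.gram 11 j i)) 8) 8 = true := by
  decide +kernel
theorem okVecs12 : grid.okVecs 12 = true ∧ grid.okStart 12 = true := by
  constructor <;> decide +kernel
theorem okSym12 : iall (fun i => iall (fun j => Int.beq' (grid.gram 12 i j) (grid.gram 12 j i)) 7) 7 = true := by
  decide +kernel
theorem okVecs13 : grid.okVecs 13 = true ∧ grid.okStart 13 = true := by
  constructor <;> decide +kernel
theorem okSym13 : iall (fun i => iall (fun j => Int.beq' (grid.gram 13 i j) (grid.gram 13 j i)) 7) 7 = true := by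
  decide +kernel
theorem okAllVecs : ∀ β < grid.nBlk, grid.okVecs β = true ∧ grid.okStart β = true := by
  intro β hβ
  change β < 14 at hβ
  interval_cases β
  · exact okVecs0
  · exact okVecs1
  · exact okVecs2
  · exact okVecs3
  · exact okVecs4
  · exact okVecs5
  · exact okVecs6
  · exact okVecs7
  · exact okVecs8
  · exact okVecs9
  · exact okVecs10
  · exact okVecs11
  · exact okVecs12
  · exact okVecs13
theorem okAllPsd : ∀ β < grid.nBlk, ∃ (m : ℕ) (w : ℕ → ℕ → ℤ),
    psdCheck (grid.size β) m w (grid.gram β) = true ∧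
    iall (fun i => iall (fun j => Int.beq' (grid.gram β i j) (grid.gram β j i)) (grid.size β)) (grid.size β)
      = true := by
  intro β hβ
  change β < 14 at hβ
  interval_cases β
  · exact ⟨_, _, okPsd0, okSym0⟩
  · exact ⟨_, _, okPsd1, okSym1⟩
  · exact ⟨_, _, okPsd2, okSym2⟩
  · exact ⟨_, _, okPsd3, okSym3⟩
  · exact ⟨_, _, okPsd4, okSym4⟩
  · exact ⟨_, _, okPsd5, okSym5⟩
  · exact ⟨_, _, okPsd6, okSym6⟩
  · exact ⟨_, _, okPsd7, okSym7⟩
  · exact ⟨_, _, okPsd8, okSym8⟩
  · exact ⟨_, _, okPsd9, okSym9⟩
  · exact ⟨_, _, okPsd10, okSym10⟩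
  · exact ⟨_, _, okPsd11, okSym11⟩
  · exact ⟨_, _, okPsd12, okSym12⟩
  · exact ⟨_, _, okPsd13, okSym13⟩

end Vale.Agent.P355.Seven.DataA
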