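import Vale.Agent.P355.Seven.DataA.Table

/-! Certificate data for the case with orthogonal squares. -/

namespace Vale.Agent.P355.Seven.DataA

noncomputable def feats : List (ℤ × List ℕ × (Slot × Slot × Slot × Slot)) :=
  [(1065645629635908815963949378, [0, 0], (.inl 0, .inl 0, .inr 0, .inr 0)), (-16053678104271424013655787031, [0, 0, 11, 18, 33, 42], (.inl 0, .inl 1, .inr 0, .inr 1)), (0, [0, 0, 0, 9, 11, 17, 24, 81], (.inl 0, .inr 5, .inl 5, .inr 0))]
noncomputable def WFeat : List ℕ :=
  unblocks (fun x => x) 70 [(10, 0x100042c6885632000000014b1a22c688000000042b460b1a222008000cb1a22c650000000022c688b1a2000080000b1a22c688000200002c688b1a2000080000b1a22c688000200002c688b1a2000000004b1a22c688)]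
noncomputable def PFeat (s : ℕ) : List (ℕ × ℤ) :=
  partAt 119 0x28e96ccf905529524f1ac67b67800041d2d99f20aa52a49e358cf6cf0000723c803746a73a6e2e1781a4164000826bcaa720c227d4b70dbe82680000800000000000000000000000000000 0x60006000600060006000600060006000600060006000600060006000600060000 s getTotal
set_option maxRecDepth 200000 in
theorem chkFeat : checkPacked tbl 104 (allFeatTerms feats) WFeat (icat PFeat 16) = true := by
  decide +kernel
theorem feats_par : ∀ x ∈ feats, okParity x.2.2 = true := by decide +kernel
theorem feats_wt : ∀ x ∈ feats,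
    monWt (x.2.1.map ldec) = quartWt x.2.2.1 x.2.2.2.1 x.2.2.2.2.1 x.2.2.2.2.2 := by decide +kernel

end Vale.Agent.P355.Seven.DataA
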