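import Vale.Agent.P355.Seven.DataA.Defs
import Vale.Agent.P355.Seven.DataA.Feat
import Vale.Agent.P355.Seven.DataA.Grid0
import Vale.Agent.P355.Seven.DataA.RelMod8
import Vale.Agent.P355.Seven.DataA.RelMod10
import Vale.Agent.P355.Seven.DataA.TauMod0

/-! Certificate data for the case with orthogonal squares. -/

namespace Vale.Agent.P355.Seven.DataA

noncomputable def cutF (a k : ℕ) : ℕ := List.getD (List.getD [[0, 1], [0, 2], [0, 3], [0, 4], [0, 5], [0, 6], [0, 7], [0, 8], [0, 9], [0, 10], [0, 11], [0, 12], [0, 13], [0, 14], [0, 15], [0, 16], [0, 17], [0, 18], [0, 19], [0, 20], [0, 21], [0, 22]] a []) k 0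
noncomputable def nCut (a : ℕ) : ℕ := List.getD [1, 1, 1, 1, 1, 1, 1, 1, 1, 1, 1, 1, 1, 1, 1, 1, 1, 1, 1, 1, 1, 1] a 0
noncomputable def PG (a k : ℕ) : ℕ → List (ℕ × ℤ) := List.getD (List.getD [[PG0_0], [PG1_0], [PG2_0], [PG3_0], [PG4_0], [PG5_0], [PG6_0], [PG7_0], [PG8_0], [PG9_0], [PG10_0], [PG11_0], [PG12_0], [PG13_0], [PG14_0], [PG15_0], [PG16_0], [PG17_0], [PG18_0], [PG19_0], [PG20_0], [PG21_0]] a []) k fun _ => []
theorem okCuts : iall (fun a => and (and (Nat.beq (cutF a 0) 0) (Nat.beq (cutF a (nCut a)) (Nat.succ a)))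
    (iall (fun k => Nat.ble (cutF a k) (cutF a (Nat.succ k))) (nCut a))) grid.nCls = true := by decide +kernel
noncomputable def PZ (r : ℕ) : ℕ → List (ℕ × ℤ) := List.getD [PRel0, PRel1, PRel2, PRel3, PRel4, PRel5, PRel6, PRel7, PRel8, PRel9, PRel10, PTau0] r fun _ => []
noncomputable def segBound (s : ℕ) : ℕ := List.getD [918495372945241, 340061378767397, 26378959538733, 3355579443294, 154598161402649, 9220875627890, 1923105234140, 0, 0, 0, 0, 0, 0, 0, 0, 0] s 0

end Vale.Agent.P355.Seven.DataA
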