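import Vale.Agent.P355.Seven.DataA.Defs

/-! Certificate data for the case with orthogonal squares. -/

namespace Vale.Agent.P355.Seven.DataA

noncomputable def gw0 (k i : ℕ) : ℤ := rowAt (List.getD [0x20b19c5ebab00000000000046a499d7a1f00000000000134f1bd79fe0, 0x7737637a000000000000001ba4ae6c3200000000000000000000000, 0x63d2319e60000000000000000000000000000000000000000000000] k 0) i
theorem okPsd0 : psdCheck 3 3 gw0 (grid.gram 0) = true := by decide +kernel

end Vale.Agent.P355.Seven.DataA
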