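import Vale.Agent.P355.Seven.DataA.Defs

/-! Certificate data for the case with orthogonal squares. -/

namespace Vale.Agent.P355.Seven.DataA

noncomputable def gw13 (k i : ℕ) : ℤ := rowAt (List.getD [0x4c6d51d37cd400000000000009576a9b2ec0000000000014e18e1547b200000000000143fe0fc10c900000000000192de577ba1d0000000000000bbeb5bdb8a000000000000184aa454d2d, 0xfff4266f8000000000000000d0eefa780000000000000004a86d491000000000000004168917cd00000000000000395daf12c000000000000000becabcc0, 0x26b6bfc98000000000000002c278e7e50000000000000032494a88900000000000000bff9da55000000000000000897e09c8a, 0x1d2633bdb0000000000000038dd3103e00000000000000acbb65cc000000000000000000000000000000000000006f2274453, 0x456cbac30000000000000001841c999b0000000000000000000000000000000000000000000000000000000000006645f4090, 0x492992326000000000000003a766efc8000000000000000000000000000000000000000000000000000000000000000000000, 0x5064e5692000000000000000000000000000000000000000000000000000000000000000000000] k 0) i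
theorem okPsd13 : psdCheck 7 7 gw13 (grid.gram 13) = true := by decide +kernel

end Vale.Agent.P355.Seven.DataA
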