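import Vale.Agent.P355.Seven.DataA.Blocks
import Vale.Agent.P355.Seven.DataA.Seg0

/-! Certificate data for the case with orthogonal squares. -/

namespace Vale.Agent.P355.Seven.DataA

theorem chunk_sums {h : Fin 6 → Fin 6 → ℂ} (hh : DReg h) : ∀ a < grid.nCls, ∀ k < nCut a,
    termSum h (grid.chunkTerms a (cutF a k) (cutF a (k + 1))) = idxSum h tbl (icat (PG a k) 16) := by
  intro a ha k hk
  change a < 22 at ha
  interval_cases a
  · change k < 1 at hk
    interval_cases k
    · exact termSum_of_packed hh chkG0_0
  · change k < 1 at hk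
    interval_cases k
    · exact termSum_of_packed hh chkG1_0
  · change k < 1 at hk
    interval_cases k
    · exact termSum_of_packed hh chkG2_0
  · change k < 1 at hk
    interval_cases k
    · exact termSum_of_packed hh chkG3_0
  · change k < 1 at hk
    interval_cases k
    · exact termSum_of_packed hh chkG4_0
  · change k < 1 at hk
    interval_cases k
    · exact termSum_of_packed hh chkG5_0
  · change k < 1 at hk
    interval_cases k
    · exact termSum_of_packed hh chkG6_0
  · change k < 1 at hk
    interval_cases k
    · exact termSum_of_packed hh chkG7_0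
  · change k < 1 at hk
    interval_cases k
    · exact termSum_of_packed hh chkG8_0
  · change k < 1 at hk
    interval_cases k
    · exact termSum_of_packed hh chkG9_0
  · change k < 1 at hk
    interval_cases k
    · exact termSum_of_packed hh chkG10_0
  · change k < 1 at hk
    interval_cases k
    · exact termSum_of_packed hh chkG11_0
  · change k < 1 at hk
    interval_cases k
    · exact termSum_of_packed hh chkG12_0
  · change k < 1 at hk
    interval_cases k
    · exact termSum_of_packed hh chkG13_0
  · change k < 1 at hk
    interval_cases k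
    · exact termSum_of_packed hh chkG14_0
  · change k < 1 at hk
    interval_cases k
    · exact termSum_of_packed hh chkG15_0
  · change k < 1 at hk
    interval_cases k
    · exact termSum_of_packed hh chkG16_0
  · change k < 1 at hk
    interval_cases k
    · exact termSum_of_packed hh chkG17_0
  · change k < 1 at hk
    interval_cases k
    · exact termSum_of_packed hh chkG18_0
  · change k < 1 at hk
    interval_cases k
    · exact termSum_of_packed hh chkG19_0
  · change k < 1 at hk
    interval_cases k
    · exact termSum_of_packed hh chkG20_0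
  · change k < 1 at hk
    interval_cases k
    · exact termSum_of_packed hh chkG21_0
theorem zero_sums {h : Fin 6 → Fin 6 → ℂ} (hh : DReg h) (ht : AFlat h) : ∀ r < 12,
    idxSum h tbl (icat (PZ r) 16) = 0 := by
  intro r hr
  interval_cases r
  · exact zeroRel0 hh
  · exact zeroRel1 hh
  · exact zeroRel2 hh
  · exact zeroRel3 hh
  · exact zeroRel4 hh
  · exact zeroRel5 hh
  · exact zeroRel6 hh
  · exact zeroRel7 hh
  · exact zeroRel8 hh
  · exact zeroRel9 hh
  · exact zeroRel10 hh
  · exact zeroTau0 hh ht
theorem seg_bound {h : Fin 6 → Fin 6 → ℂ} (hh : DReg h) {B o : ℕ} {P R : List (ℕ × ℤ)} {b : ℕ}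
    (hc : checkSeg B o P R = true) (hb : Nat.ble (absTotals R) b = true) :
    ‖idxSum h tbl P‖ ≤ (b : ℝ) * (3 * (Fintype.card Gsym : ℝ)) := by
  rw [idxSum_of_checkSeg hc]
  exact (norm_idxSum_le hh R).trans
    (mul_le_mul_of_nonneg_right (Nat.cast_le.2 (Nat.le_of_ble_eq_true hb)) (by positivity))
theorem seg_checks {h : Fin 6 → Fin 6 → ℂ} (hh : DReg h) : ∀ s < 16,
    ‖idxSum h tbl (segTotals 1034674519527329421513482307 PFeat grid.nCls nCut PG 12 PZ s)‖ ≤
      (segBound s : ℝ) * (3 * (Fintype.card Gsym : ℝ)) := by
  intro s hs
  interval_cases s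
  · exact seg_bound hh okSeg0 okBound0
  · exact seg_bound hh okSeg1 okBound1
  · exact seg_bound hh okSeg2 okBound2
  · exact seg_bound hh okSeg3 okBound3
  · exact seg_bound hh okSeg4 okBound4
  · exact seg_bound hh okSeg5 okBound5
  · exact seg_bound hh okSeg6 okBound6
  · exact seg_bound hh okSeg7 okBound7
  · exact seg_bound hh okSeg8 okBound8
  · exact seg_bound hh okSeg9 okBound9
  · exact seg_bound hh okSeg10 okBound10
  · exact seg_bound hh okSeg11 okBound11
  · exact seg_bound hh okSeg12 okBound12
  · exact seg_bound hh okSeg13 okBound13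
  · exact seg_bound hh okSeg14 okBound14
  · exact seg_bound hh okSeg15 okBound15
theorem tbl_zero : tbl 0 = [] := by decide +kernel
theorem bound_small : 3 * ((∑ s ∈ Finset.range 16, segBound s : ℕ) : ℤ) < 1034674519527329421513482307 := by decide +kernel
theorem case_identity (h : Fin 6 → Fin 6 → ℂ) (hh : DReg h) (ht : AFlat h) :
    ∃ s : ℂ, 0 ≤ s.re ∧ termSum h (allFeatTerms feats) + s + ((1 : ℤ) : ℂ) * wVal h [] = 0 :=
  identity_of_parts hh (termSum_of_packed hh chkFeat)
    (grid.nonneg_of_chunks corrW okClasses okCorr okAllVecs okAllPsd nCut cutF okCuts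
      (fun a k => icat (PG a k) 16) (chunk_sums hh))
    (zero_sums hh ht) (by norm_num) tbl_zero segBound (seg_checks hh) bound_small

end Vale.Agent.P355.Seven.DataA
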